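import Vale.Agent.P212.Base.Torus

/-!
P212: operators on amplified root modules acting by matrix functions.
-/

open scoped InnerProductSpace ZeroAtInfty
open MeasureTheory

namespace VP212

variable {H : Type} [NormedAddCommGroup H] [InnerProductSpace ℂ H] {κ : Type} [Fintype κ]

theorem amplMat_apply {H' : Type} [NormedAddCommGroup H'] [InnerProductSpace ℂ H']
    (M : Matrix κ κ (H →L[ℂ] H')) (v : Ampl κ H) (i : κ) :
    amplMat M v i = ∑ j, M i j (v j) := by
  simp [amplMat]

/-- `X` acts on every component by the matrix function `Q`. -/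
def Acts (U : H ≃ₗᵢ[ℂ] RootL2) (X : Ampl κ H →L[ℂ] Ampl κ H)
    (Q : ℕ → Torus → Matrix κ κ ℂ) : Prop :=
  ∀ v i n, ⇑(U (X v i) n : TorusL2) =ᵐ[volume] fun x => ∑ j, Q n x i j * (U (v j) n : TorusL2) x

variable {U : H ≃ₗᵢ[ℂ] RootL2} {X Y : Ampl κ H →L[ℂ] Ampl κ H}
  {Q Q' : ℕ → Torus → Matrix κ κ ℂ}

theorem Acts.ext (h : Acts U X Q) (h' : Acts U Y Q) : X = Y := by
  ext1 v
  ext i
  apply U.injective
  ext1
  funext n
  exact Lp.ext ((h v i n).trans (h' v i n).symm)

theorem Acts.congr (h : Acts U X Q) (hQ : ∀ n x, Q n x = Q' n x) : Acts U X Q' := by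
  intro v i n
  simpa [hQ] using h v i n

theorem Acts.mul (h : Acts U X Q) (h' : Acts U Y Q') :
    Acts U (X * Y) (fun n x => Q n x * Q' n x) := by
  intro v i n
  refine (h (Y v) i n).trans ?_
  filter_upwards [Filter.eventually_all.2 fun j => h' v j n] with x hx
  simp only [hx, Matrix.mul_apply, Finset.sum_mul, Finset.mul_sum, mul_assoc]
  exact Finset.sum_comm

theorem Acts.add (h : Acts U X Q) (h' : Acts U Y Q') :
    Acts U (X + Y) (fun n x => Q n x + Q' n x) := by
  intro v i n
  have e : (U ((X + Y) v i) n : TorusL2) = U (X v i) n + U (Y v i) n := by simp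
  rw [e]
  filter_upwards [Lp.coeFn_add (U (X v i) n : TorusL2) (U (Y v i) n), h v i n, h' v i n]
    with x hx hX hY
  rw [hx, Pi.add_apply, hX, hY]
  simp [add_mul, Finset.sum_add_distrib]

theorem Acts.smul (c : ℂ) (h : Acts U X Q) : Acts U (c • X) (fun n x => c • Q n x) := by
  intro v i n
  have e : (U ((c • X) v i) n : TorusL2) = c • (U (X v i) n : TorusL2) := by simp
  rw [e]
  filter_upwards [Lp.coeFn_smul c (U (X v i) n : TorusL2), h v i n] with x hx hX
  rw [hx, Pi.smul_apply, hX]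
  simp [Finset.mul_sum, mul_assoc]

theorem acts_zero : Acts U (0 : Ampl κ H →L[ℂ] Ampl κ H) (fun _ _ => 0) := by
  intro v i n
  have e : (U ((0 : Ampl κ H →L[ℂ] Ampl κ H) v i) n : TorusL2) = 0 := by simp
  rw [e]
  filter_upwards [Lp.coeFn_zero ℂ 2 (volume : Measure Torus)] with x hx
  simp [hx]

theorem acts_map {A : Type} [NonUnitalRing A] [Module ℂ A] [Star A] [CompleteSpace H]
    (ρ : A →⋆ₙₐ[ℂ] (H →L[ℂ] H)) (ev : A → ℕ → Torus → ℂ)
    (hρ : ∀ f v n, ⇑(U (ρ f v) n : TorusL2) =ᵐ[volume]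
      fun x => ev f n x * (U v n : TorusL2) x) (M : Matrix κ κ A) :
    Acts U (amplMat (M.map ρ)) (fun n x i j => ev (M i j) n x) := by
  intro v i n
  have e : (U (amplMat (M.map ρ) v i) n : TorusL2) = ∑ j, (U (ρ (M i j) (v j)) n : TorusL2) := by
    rw [amplMat_apply, map_sum]
    classical
    induction (Finset.univ : Finset κ) using Finset.induction_on with
    | empty => simp
    | insert a s ha ih => simp [Finset.sum_insert ha, ← ih]
  rw [e]
  have hs : ∀ (s : Finset κ) (f : κ → TorusL2),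
      ⇑(∑ j ∈ s, f j) =ᵐ[volume] fun x => ∑ j ∈ s, f j x := by
    intro s f
    classical
    induction s using Finset.induction_on with
    | empty =>
      filter_upwards [Lp.coeFn_zero ℂ 2 (volume : Measure Torus)] with x hx
      simpa using hx
    | insert a s ha ih =>
      rw [Finset.sum_insert ha]
      filter_upwards [Lp.coeFn_add (f a) (∑ j ∈ s, f j), ih] with x hx h2
      rw [hx, Pi.add_apply, h2, Finset.sum_insert ha]
  filter_upwards [hs Finset.univ fun j => (U (ρ (M i j) (v j)) n : TorusL2),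
    Filter.eventually_all.2 fun j => hρ (M i j) (v j) n] with x hx hj
  rw [hx]
  exact Finset.sum_congr rfl fun j _ => hj j

/-- The coordinates of one component. -/
noncomputable def compMap (U : H ≃ₗᵢ[ℂ] RootL2) (n : ℕ) : Ampl κ H →ₗ[ℂ] Ampl κ TorusL2 where
  toFun v := WithLp.toLp 2 fun i => (U (v i) n : TorusL2)
  map_add' v w := by ext1; simp
  map_smul' c v := by ext1; simp

/-- The inclusion of one component. -/
noncomputable def inclMap (U : H ≃ₗᵢ[ℂ] RootL2) (n : ℕ) : Ampl κ TorusL2 →ₗ[ℂ] Ampl κ H where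
  toFun v := WithLp.toLp 2 fun i => U.symm (lp.single 2 n (v i))
  map_add' v w := by ext1; simp [lp.single_add]
  map_smul' c v := by ext1; simp [lp.single_smul]

theorem compMap_apply (n : ℕ) (v : Ampl κ H) (i : κ) :
    compMap U n v i = (U (v i) n : TorusL2) := rfl

theorem inclMap_apply (n : ℕ) (v : Ampl κ TorusL2) (i : κ) :
    inclMap U n v i = U.symm (lp.single 2 n (v i)) := rfl

theorem comp_incl (n : ℕ) (v : Ampl κ TorusL2) : compMap U n (inclMap U n v) = v := by
  ext i : 1
  simp [compMap_apply, inclMap_apply]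

/-- The operator on one component. -/
noncomputable def atComp (U : H ≃ₗᵢ[ℂ] RootL2) (n : ℕ) (X : Ampl κ H →L[ℂ] Ampl κ H) :
    Ampl κ TorusL2 →L[ℂ] Ampl κ TorusL2 :=
  LinearMap.mkContinuous ((compMap U n).comp ((X : Ampl κ H →ₗ[ℂ] Ampl κ H).comp (inclMap U n)))
    ‖X‖ (fun v => by
      have h1 : ‖inclMap U n v‖ = ‖v‖ := by
        rw [PiLp.norm_eq_of_L2, PiLp.norm_eq_of_L2]
        simp [inclMap_apply]
      have h2 : ‖compMap U n (X (inclMap U n v))‖ ≤ ‖X (inclMap U n v)‖ := by
        rw [PiLp.norm_eq_of_L2, PiLp.norm_eq_of_L2]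
        refine Real.sqrt_le_sqrt (Finset.sum_le_sum fun i _ => ?_)
        rw [compMap_apply]
        gcongr
        exact (lp.norm_apply_le_norm two_ne_zero _ n).trans_eq (U.norm_map _)
      calc _ ≤ ‖X (inclMap U n v)‖ := h2
        _ ≤ ‖X‖ * ‖inclMap U n v‖ := X.le_opNorm _
        _ = ‖X‖ * ‖v‖ := by rw [h1])

theorem atComp_apply (n : ℕ) (v : Ampl κ TorusL2) :
    atComp U n X v = compMap U n (X (inclMap U n v)) := rfl

theorem atComp_acts (h : Acts U X Q) (n : ℕ) (v : Ampl κ TorusL2) (i : κ) :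
    ⇑(atComp U n X v i) =ᵐ[volume] fun x => ∑ j, Q n x i j * (v j : TorusL2) x := by
  refine (h (inclMap U n v) i n).trans (Filter.Eventually.of_forall fun x => ?_)
  simp [inclMap_apply]

theorem supported (h : Acts U X Q) (n : ℕ) (hQ : ∀ n', n' ≠ n → ∀ x, Q n' x = 0)
    (v : Ampl κ H) : X v = inclMap U n (atComp U n X (compMap U n v)) := by
  ext i : 1
  apply U.injective
  ext1
  funext n'
  simp only [inclMap_apply, LinearIsometryEquiv.apply_symm_apply, lp.single_apply]
  by_cases hn : n' = n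
  · subst hn
    rw [Pi.single_eq_same]
    refine Lp.ext ((h v i n').trans ((atComp_acts h n' _ i).trans ?_).symm)
    exact Filter.Eventually.of_forall fun x => rfl
  · rw [Pi.single_eq_of_ne hn]
    apply Lp.ext
    filter_upwards [h v i n', Lp.coeFn_zero ℂ 2 (volume : Measure Torus)] with x hx h0
    simp [hx, h0, hQ n' hn x]

variable [CompleteSpace H] {H' : Type} [NormedAddCommGroup H'] [InnerProductSpace ℂ H']
  {U' : H' ≃ₗᵢ[ℂ] RootL2} {X' : Ampl κ H' →L[ℂ] Ampl κ H'}

/-- An index on one component is the index on the sum when the projections live there. -/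
theorem index_lift (n : ℕ) (hX : Acts U X Q) (hX' : Acts U' X' Q)
    (hQ : ∀ n', n' ≠ n → ∀ x, Q n' x = 0)
    (S : Ampl κ H →L[ℂ] Ampl κ H') (Sn : Ampl κ TorusL2 →L[ℂ] Ampl κ TorusL2)
    (hS : ∀ v, compMap U' n (S v) = Sn (compMap U n v)) (k : ℤ)
    (hk : HasIndexBetween (atComp U n X) (atComp U' n X') Sn k) :
    HasIndexBetween X X' S k := by
  obtain ⟨L, hL, hker, hco, hkk⟩ := hk
  let pn := LinearMap.range ((atComp U n X : _ →L[ℂ] _) : Ampl κ TorusL2 →ₗ[ℂ] Ampl κ TorusL2)
  let pn' := LinearMap.range ((atComp U' n X' : _ →L[ℂ] _) : Ampl κ TorusL2 →ₗ[ℂ] Ampl κ TorusL2)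
  let p := LinearMap.range ((X : _ →L[ℂ] _) : Ampl κ H →ₗ[ℂ] Ampl κ H)
  let p' := LinearMap.range ((X' : _ →L[ℂ] _) : Ampl κ H' →ₗ[ℂ] Ampl κ H')
  let e : p ≃ₗ[ℂ] pn :=
    LinearEquiv.ofLinear
      (LinearMap.codRestrict pn ((compMap U n).comp p.subtype) (by
        rintro ⟨_, v, rfl⟩
        exact ⟨compMap U n v, by simp [supported hX n hQ v, comp_incl]⟩))
      (LinearMap.codRestrict p ((inclMap U n).comp pn.subtype) (by
        rintro ⟨_, v, rfl⟩
        exact ⟨inclMap U n v, by simp [supported hX n hQ (inclMap U n v), comp_incl]⟩))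
      (by ext1 v; exact Subtype.ext (comp_incl n _))
      (by
        ext1 v
        obtain ⟨_, w, rfl⟩ := v
        apply Subtype.ext
        simp [supported hX n hQ w, comp_incl])
  let e' : p' ≃ₗ[ℂ] pn' :=
    LinearEquiv.ofLinear
      (LinearMap.codRestrict pn' ((compMap U' n).comp p'.subtype) (by
        rintro ⟨_, v, rfl⟩
        exact ⟨compMap U' n v, by simp [supported hX' n hQ v, comp_incl]⟩))
      (LinearMap.codRestrict p' ((inclMap U' n).comp pn'.subtype) (by
        rintro ⟨_, v, rfl⟩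
        exact ⟨inclMap U' n v, by simp [supported hX' n hQ (inclMap U' n v), comp_incl]⟩))
      (by ext1 v; exact Subtype.ext (comp_incl n _))
      (by
        ext1 v
        obtain ⟨_, w, rfl⟩ := v
        apply Subtype.ext
        simp [supported hX' n hQ w, comp_incl])
  refine ⟨e'.symm.toLinearMap.comp (L.comp e.toLinearMap), fun x => ?_, ?_, ?_, ?_⟩
  · change inclMap U' n ((L (e x) : pn') : Ampl κ TorusL2) = X' (S x)
    rw [hL, supported hX' n hQ (S x), hS]
    rfl
  all_goals
    have hk1 : LinearMap.ker (e'.symm.toLinearMap.comp (L.comp e.toLinearMap)) ≃ₗ[ℂ]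
        LinearMap.ker L :=
      e.ofSubmodules _ _ (by
        ext y
        constructor
        · rintro ⟨x, hx, rfl⟩
          simpa using hx
        · intro hy
          exact ⟨e.symm y, by simpa using hy, by simp⟩)
    have hk2 : (p' ⧸ LinearMap.range (e'.symm.toLinearMap.comp (L.comp e.toLinearMap))) ≃ₗ[ℂ]
        pn' ⧸ LinearMap.range L :=
      Submodule.Quotient.equiv _ _ e' (by
        rw [LinearMap.range_comp, LinearMap.range_comp, LinearEquiv.range, Submodule.map_top,
          ← Submodule.map_comp]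
        simp)
  · exact Module.Finite.equiv hk1.symm
  · exact Module.Finite.equiv hk2.symm
  · rw [hk1.finrank_eq, hk2.finrank_eq]
    exact hkk

end VP212
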