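import Vale.Agent.P212.Main.Push
import Vale.Agent.P212.Main.Acts

/-!
P212: the disproof from the parts.
-/

open scoped InnerProductSpace ZeroAtInfty
open MeasureTheory

namespace VP212

variable {H H' : Type} [NormedAddCommGroup H] [InnerProductSpace ℂ H] [CompleteSpace H]
  [NormedAddCommGroup H'] [InnerProductSpace ℂ H'] [CompleteSpace H'] {κ : Type} [Fintype κ]
  [DecidableEq κ]

theorem amplDiag_apply (W : H →L[ℂ] H') (v : Ampl κ H) (i : κ) :
    amplMat (Matrix.diagonal fun _ : κ => W) v i = W (v i) := by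
  rw [amplMat_apply, Finset.sum_eq_single i]
  · simp
  · intro j _ hj
    simp [Matrix.diagonal_apply_ne' _ hj]
  · simp

theorem compact_sum {ι : Type} (s : Finset ι) (f : ι → (H →L[ℂ] H'))
    (h : ∀ i, IsCompactOperator (f i)) : IsCompactOperator ⇑((∑ i ∈ s, f i) : H →L[ℂ] H') := by
  classical
  induction s using Finset.induction_on with
  | empty => simp; exact isCompactOperator_zero
  | insert a s ha ih => rw [Finset.sum_insert ha]; exact (h a).add ih

theorem compact_amplMat (M : Matrix κ κ (H →L[ℂ] H')) (h : ∀ i j, IsCompactOperator (M i j)) :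
    IsCompactOperator (amplMat M) := by
  have e : amplMat M = ∑ i, ∑ j,
      ((PiLp.continuousLinearEquiv 2 ℂ (fun _ : κ => H')).symm.toContinuousLinearMap.comp
        (ContinuousLinearMap.single ℂ (fun _ : κ => H') i)).comp
      ((M i j).comp (PiLp.proj 2 (fun _ : κ => H) j)) := by
    ext v k : 2
    simp [amplMat_apply, ContinuousLinearMap.sum_apply, Pi.single_apply, Finset.sum_apply]
  rw [e]
  refine compact_sum _ _ fun i => compact_sum _ _ fun j => ?_
  exact IsCompactOperator.clm_comp (IsCompactOperator.comp_clm (h i j)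
    (PiLp.proj 2 (fun _ : κ => H) j))
    ((PiLp.continuousLinearEquiv 2 ℂ (fun _ : κ => H')).symm.toContinuousLinearMap.comp
      (ContinuousLinearMap.single ℂ (fun _ : κ => H') i))

theorem amplMat_comm {A : Type} [NonUnitalRing A] [Module ℂ A] [Star A]
    (r0 : A →⋆ₙₐ[ℂ] (H →L[ℂ] H)) (r1 : A →⋆ₙₐ[ℂ] (H' →L[ℂ] H')) (W : H →L[ℂ] H')
    (hW : ∀ a, IsCompactOperator (W.comp (r0 a) - (r1 a).comp W)) (M : Matrix κ κ A) :
    IsCompactOperator ((amplMat (Matrix.diagonal fun _ : κ => W)).comp (amplMat (M.map r0)) -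
      (amplMat (M.map r1)).comp (amplMat (Matrix.diagonal fun _ : κ => W))) := by
  have e : (amplMat (Matrix.diagonal fun _ : κ => W)).comp (amplMat (M.map r0)) -
      (amplMat (M.map r1)).comp (amplMat (Matrix.diagonal fun _ : κ => W)) =
      amplMat (Matrix.of fun i j => W.comp (r0 (M i j)) - (r1 (M i j)).comp W) := by
    ext v k : 2
    simp only [ContinuousLinearMap.sub_apply, ContinuousLinearMap.comp_apply, PiLp.sub_apply,
      amplDiag_apply]
    simp [amplMat_apply, map_sum, Matrix.diagonal_apply, apply_ite, ite_apply]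
  rw [e]
  exact compact_amplMat _ fun i j => hW (M i j)

/-- The coordinate projection on one component. -/
noncomputable def compProj (U : H ≃ₗᵢ[ℂ] RootL2) (n : ℕ) (G : Finset κ) :
    Ampl κ H →L[ℂ] Ampl κ H :=
  LinearMap.mkContinuous
    { toFun := fun v => WithLp.toLp 2 fun i =>
        if i ∈ G then U.symm (lp.single 2 n (U (v i) n : TorusL2)) else 0
      map_add' := fun v w => by
        ext i : 1
        by_cases h : i ∈ G <;> simp [h, lp.single_add]
      map_smul' := fun c v => by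
        ext i : 1
        by_cases h : i ∈ G <;> simp [h, lp.single_smul] }
    1 (fun v => by
      rw [one_mul, PiLp.norm_eq_of_L2, PiLp.norm_eq_of_L2]
      refine Real.sqrt_le_sqrt (Finset.sum_le_sum fun i _ => ?_)
      by_cases h : i ∈ G
      · simp [h]
        gcongr
        exact (lp.norm_apply_le_norm two_ne_zero _ n).trans_eq (U.norm_map _)
      · simp [h])

theorem compProj_apply (U : H ≃ₗᵢ[ℂ] RootL2) (n : ℕ) (G : Finset κ) (v : Ampl κ H) (i : κ) :
    compProj U n G v i = if i ∈ G then U.symm (lp.single 2 n (U (v i) n : TorusL2)) else 0 := rfl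

theorem compProj_acts (U : H ≃ₗᵢ[ℂ] RootL2) (n : ℕ) (G : Finset κ) :
    Acts U (compProj U n G) (fun n' _ => if n' = n then coordProj G else 0) := by
  intro v i n'
  by_cases hn : n' = n
  · subst hn
    rw [compProj_apply]
    by_cases hi : i ∈ G
    · simp [hi, coordProj, Matrix.diagonal_apply]
    · simp only [hi, if_false, map_zero]
      filter_upwards [Lp.coeFn_zero ℂ 2 (volume : Measure Torus)] with x hx
      simp [coordProj, Matrix.diagonal_apply, hi]
  · have e : (U (compProj U n G v i) n' : TorusL2) = 0 := by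
      rw [compProj_apply]
      by_cases hi : i ∈ G <;> simp [hi, hn]
    rw [e]
    filter_upwards [Lp.coeFn_zero ℂ 2 (volume : Measure Torus)] with x hx
    simp [hx, hn]

theorem half_loop {θ : ℝ → ℝ} (hc : Continuous θ) (h0 : θ 0 = 0) {m : ℤ} (h1 : θ 1 = m)
    (hm : m = 1 ∨ m = -1) :
    ∃ s ∈ Set.Icc (0 : ℝ) 1, Complex.exp (2 * Real.pi * Complex.I * θ s) - 1 = -2 ∧
      Complex.exp (-(2 * Real.pi * Complex.I * θ s)) - 1 = -2 := by
  obtain ⟨s, hs, hθ⟩ : ∃ s ∈ Set.Icc (0 : ℝ) 1, θ s = (m : ℝ) / 2 := by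
    rcases hm with rfl | rfl
    · have := intermediate_value_Icc zero_le_one hc.continuousOn
        (show ((1 : ℤ) : ℝ) / 2 ∈ Set.Icc (θ 0) (θ 1) by rw [h0, h1]; norm_num)
      exact this
    · have := intermediate_value_Icc' zero_le_one hc.continuousOn
        (show ((-1 : ℤ) : ℝ) / 2 ∈ Set.Icc (θ 1) (θ 0) by rw [h0, h1]; norm_num)
      exact this
  refine ⟨s, hs, ?_⟩
  rw [hθ]
  rcases hm with rfl | rfl
  · rw [show 2 * (Real.pi : ℂ) * Complex.I * (((1 : ℤ) : ℝ) / 2 : ℝ) = Real.pi * Complex.I by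
      push_cast; ring, Complex.exp_neg, Complex.exp_pi_mul_I]
    norm_num
  · rw [show 2 * (Real.pi : ℂ) * Complex.I * (((-1 : ℤ) : ℝ) / 2 : ℝ) = -(Real.pi * Complex.I) by
      push_cast; ring, neg_neg, Complex.exp_neg, Complex.exp_pi_mul_I]
    norm_num

theorem linePlus_idem {ι : Type} [Fintype ι] {d : ℤ} {F : Finset ι}
    {P : Torus → Matrix ι ι ℂ} (h : IsLinePlus d F P) (x : Torus) : P x * P x = P x := by
  classical
  obtain ⟨a, b⟩ := x
  obtain ⟨a, rfl⟩ := QuotientAddGroup.mk_surjective a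
  obtain ⟨b, rfl⟩ := QuotientAddGroup.mk_surjective b
  obtain ⟨ξ, ⟨-, hone, -, -⟩, hF, hform⟩ := h
  have hnorm : ∑ l, starRingEnd ℂ (ξ a b l) * ξ a b l = 1 := by
    simp_rw [Complex.conj_mul']
    exact_mod_cast hone a b
  have e : P (↑a, ↑b) = Matrix.vecMulVec (ξ a b) (fun j => starRingEnd ℂ (ξ a b j)) +
      Matrix.diagonal (fun i => if i ∈ F then 1 else 0) := by
    ext i j
    rw [hform, Matrix.add_apply, Matrix.vecMulVec_apply, Matrix.diagonal_apply]
    by_cases hij : i = j <;> by_cases hi : i ∈ F <;> simp [hij, hi] <;> simp_all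
  rw [e]
  ext i j
  simp only [Matrix.mul_apply, Matrix.add_apply, Matrix.vecMulVec_apply, Matrix.diagonal_apply,
    add_mul, mul_add, Finset.sum_add_distrib]
  have t1 : ∑ l, ξ a b i * starRingEnd ℂ (ξ a b l) * (ξ a b l * starRingEnd ℂ (ξ a b j)) =
      ξ a b i * starRingEnd ℂ (ξ a b j) := by
    calc _ = ξ a b i * (∑ l, starRingEnd ℂ (ξ a b l) * ξ a b l) * starRingEnd ℂ (ξ a b j) := by
          rw [Finset.mul_sum, Finset.sum_mul]
          exact Finset.sum_congr rfl fun l _ => by ring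
      _ = _ := by rw [hnorm, mul_one]
  rw [t1]
  by_cases hi : i ∈ F <;> by_cases hj : j ∈ F <;> by_cases hij : i = j <;>
    simp_all [ite_mul, mul_ite]

/-- A module of phases on the root tori sees the loop of the bundle path, with index `±1`. -/
theorem sees_of_path {A : Type} [NonUnitalCStarAlgebra A] {Q : ℕ} (p : QPath A Q) (N : FredMod A)
    (U0 : N.H0.carrier ≃ₗᵢ[ℂ] RootL2) (U1 : N.H1.carrier ≃ₗᵢ[ℂ] RootL2)
    (W : ℕ → (TorusL2 →L[ℂ] TorusL2)) (ev : A → ℕ → Torus → ℂ)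
    (hev0 : ∀ f v n, ⇑(U0 (N.ρ0 f v) n : TorusL2) =ᵐ[volume]
      fun x => ev f n x * (U0 v n : TorusL2) x)
    (hev1 : ∀ f v n, ⇑(U1 (N.ρ1 f v) n : TorusL2) =ᵐ[volume]
      fun x => ev f n x * (U1 v n : TorusL2) x)
    (hW : ∀ v n, (U1 (N.W v) n : TorusL2) = W n (U0 v n)) (n : ℕ) (mn : ℤ × ℤ → ℂ)
    (hm : PhaseLike mn) (hWm : IsMultiplier mn (W n)) (hI : TorusIndexSpec)
    {θ : ℝ → ℝ} {deg d : ℤ} (hθc : Continuous θ) (hθ0 : θ 0 = 0) (hθ1 : θ 1 = deg)
    (hdeg : deg = 1 ∨ deg = -1) (hd : d = 1 ∨ d = -1) {F G : Finset (p.ι × Fin Q)}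
    {P : Torus → Matrix (p.ι × Fin Q) (p.ι × Fin Q) ℂ} (hline : IsLinePlus d F P)
    (hPG : ∀ x, P x * coordProj G = 0) (hGP : ∀ x, coordProj G * P x = 0)
    (hval : ∀ t ∈ Set.Icc (0 : ℝ) 1, ∀ n' x,
      (p.a t).map (fun f => ev f n' x) =
        (Complex.exp (2 * Real.pi * Complex.I * θ t) - 1) • (if n' = n then P x else 0) +
        (Complex.exp (-(2 * Real.pi * Complex.I * θ t)) - 1) •
          (if n' = n then coordProj G else 0)) :
    ∃ P0 C0 P1 C1 kP, (kP = 1 ∨ kP = -1) ∧ SeesLoop p N θ P0 C0 P1 C1 ∧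
      HasIndexBetween P0 P1 (amplMat (Matrix.diagonal fun _ => N.W)) kP ∧
      HasIndexBetween C0 C1 (amplMat (Matrix.diagonal fun _ => N.W)) 0 := by
  let PP : ℕ → Torus → Matrix (p.ι × Fin Q) (p.ι × Fin Q) ℂ := fun n' x =>
    if n' = n then P x else 0
  let CC : ℕ → Torus → Matrix (p.ι × Fin Q) (p.ι × Fin Q) ℂ := fun n' _ =>
    if n' = n then coordProj G else 0
  obtain ⟨s, hs, he1, he2⟩ := half_loop hθc hθ0 hθ1 hdeg
  have hsum : ∀ n' x, (-1 / 2 : ℂ) • (p.a s).map (fun f => ev f n' x) = PP n' x + CC n' x := by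
    intro n' x
    rw [hval s hs n' x, he1, he2, smul_add, smul_smul, smul_smul]
    norm_num [PP, CC]
  let C0 := compProj U0 n G
  let C1 := compProj U1 n G
  let P0 := (-1 / 2 : ℂ) • amplMat ((p.a s).map N.ρ0) + (-1 : ℂ) • C0
  let P1 := (-1 / 2 : ℂ) • amplMat ((p.a s).map N.ρ1) + (-1 : ℂ) • C1
  have hC0 : Acts U0 C0 CC := compProj_acts U0 n G
  have hC1 : Acts U1 C1 CC := compProj_acts U1 n G
  have hPPeq : ∀ n' x, (-1 / 2 : ℂ) • (Matrix.of fun i j => ev (p.a s i j) n' x) +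
      (-1 : ℂ) • CC n' x = PP n' x := by
    intro n' x
    have := hsum n' x
    rw [show (Matrix.of fun i j => ev (p.a s i j) n' x) =
      (p.a s).map (fun f => ev f n' x) from rfl, this]
    simp
  have hP0 : Acts U0 P0 PP :=
    (((acts_map N.ρ0 ev hev0 (p.a s)).smul _).add (hC0.smul _)).congr hPPeq
  have hP1 : Acts U1 P1 PP :=
    (((acts_map N.ρ1 ev hev1 (p.a s)).smul _).add (hC1.smul _)).congr hPPeq
  have hGG : coordProj G * coordProj G = coordProj G := by
    classical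
    ext i j
    simp only [coordProj, Matrix.mul_apply, Matrix.diagonal_apply]
    by_cases hi : i ∈ G <;> by_cases hij : i = j <;> simp [hi, hij] <;> simp_all
  have hPP : ∀ x, P x * P x = P x := linePlus_idem hline
  have hzero : ∀ n', n' ≠ n → ∀ x, PP n' x = 0 := fun n' hn x => by simp [PP, hn]
  have hzeroC : ∀ n', n' ≠ n → ∀ x, CC n' x = 0 := fun n' hn x => by simp [CC, hn]
  have hPPid : ∀ n' x, PP n' x * PP n' x = PP n' x := fun n' x => by
    by_cases hn : n' = n <;> simp [PP, hn, hPP]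
  have hCCid : ∀ n' x, CC n' x * CC n' x = CC n' x := fun n' x => by
    by_cases hn : n' = n <;> simp [CC, hn, hGG]
  have hPC : ∀ n' x, PP n' x * CC n' x = 0 := fun n' x => by
    by_cases hn : n' = n <;> simp [PP, CC, hn, hPG]
  have hCP : ∀ n' x, CC n' x * PP n' x = 0 := fun n' x => by
    by_cases hn : n' = n <;> simp [PP, CC, hn, hGP]
  let D := amplMat (Matrix.diagonal fun _ : p.ι × Fin Q => N.W)
  have hDc : ∀ v i, D v i = N.W (v i) := fun v i => amplDiag_apply N.W v i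
  have hcomm : D.comp C0 = C1.comp D := by
    ext v i : 2
    simp only [ContinuousLinearMap.comp_apply, hDc, C0, C1, compProj_apply]
    by_cases hi : i ∈ G
    · rw [if_pos hi, if_pos hi]
      apply U1.injective
      ext1
      funext n'
      rw [hW, LinearIsometryEquiv.apply_symm_apply, LinearIsometryEquiv.apply_symm_apply,
        lp.single_apply, lp.single_apply, hW]
      by_cases hn : n' = n
      · subst hn; simp
      · simp [hn]
    · rw [if_neg hi, if_neg hi, map_zero]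
  have hsees : SeesLoop p N θ P0 C0 P1 C1 := by
    refine ⟨hθc, hθ0, ((hP0.mul hP0).congr hPPid).ext hP0, ((hC0.mul hC0).congr hCCid).ext hC0,
      ((hP1.mul hP1).congr hPPid).ext hP1, ((hC1.mul hC1).congr hCCid).ext hC1,
      ((hP0.mul hC0).congr hPC).ext acts_zero, ((hC0.mul hP0).congr hCP).ext acts_zero,
      ((hP1.mul hC1).congr hPC).ext acts_zero, ((hC1.mul hP1).congr hCP).ext acts_zero,
      fun t ht => ⟨?_, ?_⟩, ?_, ?_⟩
    · exact ((acts_map N.ρ0 ev hev0 (p.a t)).congr fun n' x => hval t ht n' x).ext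
        ((hP0.smul _).add (hC0.smul _))
    · exact ((acts_map N.ρ1 ev hev1 (p.a t)).congr fun n' x => hval t ht n' x).ext
        ((hP1.smul _).add (hC1.smul _))
    · have e : D.comp P0 - P1.comp D = (-1 / 2 : ℂ) •
          (D.comp (amplMat ((p.a s).map N.ρ0)) - (amplMat ((p.a s).map N.ρ1)).comp D) := by
        simp only [P0, P1, ContinuousLinearMap.comp_add, ContinuousLinearMap.add_comp,
          ContinuousLinearMap.comp_smul, ContinuousLinearMap.smul_comp, hcomm, smul_sub]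
        abel
      rw [e]
      exact (amplMat_comm N.ρ0 N.ρ1 N.W N.commW (p.a s)).smul (-1 / 2 : ℂ)
    · rw [show (amplMat (Matrix.diagonal fun _ : p.ι × Fin Q => N.W)).comp C0 - C1.comp
        (amplMat (Matrix.diagonal fun _ : p.ι × Fin Q => N.W)) = 0 from sub_eq_zero.2 hcomm]
      exact isCompactOperator_zero
  have hSn : ∀ v : Ampl (p.ι × Fin Q) N.H0.carrier, compMap U1 n (D v) =
      amplMat (Matrix.diagonal fun _ : p.ι × Fin Q => W n) (compMap U0 n v) := by
    intro v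
    ext i : 1
    rw [compMap_apply, hDc, hW, amplDiag_apply, compMap_apply]
  obtain ⟨hline', hconst⟩ := hI (p.ι × Fin Q) mn (W n) hm hWm
  have heq : ∀ {X0 : Ampl (p.ι × Fin Q) N.H0.carrier →L[ℂ] Ampl (p.ι × Fin Q) N.H0.carrier}
      {X1 : Ampl (p.ι × Fin Q) N.H1.carrier →L[ℂ] Ampl (p.ι × Fin Q) N.H1.carrier}
      {Y : ℕ → Torus → Matrix (p.ι × Fin Q) (p.ι × Fin Q) ℂ},
      Acts U0 X0 Y → Acts U1 X1 Y → atComp U1 n X1 = atComp U0 n X0 := by
    intro X0 X1 Y h0 h1
    ext v i : 2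
    exact Lp.ext ((atComp_acts h1 n v i).trans (atComp_acts h0 n v i).symm)
  obtain ⟨kP, hkP, hidxP⟩ := hline' d F P (atComp U0 n P0) hd hline (fun v i => by
    simpa [PP] using atComp_acts hP0 n v i)
  have hidxC := hconst G (atComp U0 n C0) (fun v i => by
    by_cases hi : i ∈ G <;> simp [atComp_apply, compMap_apply, inclMap_apply, C0, compProj_apply, hi])
  have h1 : HasIndexBetween P0 P1 D kP :=
    index_lift n hP0 hP1 hzero D _ hSn kP (by rw [heq hP0 hP1]; exact hidxP)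
  have h2 : HasIndexBetween C0 C1 D 0 :=
    index_lift n hC0 hC1 hzeroC D _ hSn 0 (by rw [heq hC0 hC1]; exact hidxC)
  exact ⟨P0, C0, P1, C1, kP, hkP, hsees, h1, h2⟩

/-- The negative answer from the parts of the proof. -/
theorem disproof_of_parts (hT : TowerSpec) (hG : GeometrySpec) (hN : NormFiniteSpec)
    (hR : RoeRingSpec) (hA : AveragingSpec) (hS : SwindleSpec) (hM : TorusModuleSpec)
    (hP : PairingSpec) (hB : BundleSpec) (hI : TorusIndexSpec) : Disproof := by
  obtain ⟨T, hlift⟩ := hT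
  obtain ⟨hUD, hBG, hBGb, -, -, -, -⟩ := hG T
  refine ⟨Vert T, inferInstance, hUD, hBG, hN _ hUD hBG, 2, ?_⟩
  obtain ⟨M, hTor, hGeo, J0, J1, hJ0, hJ1, T0, S, hE, hSr, hcd, hidem⟩ := hM T hBG hUD
  choose A hAim using fun i j => hN _ hUD hBG _ (hE i j).1
  choose B hBim using fun i j => hN _ base_discrete hBGb _ (hSr i j).1
  have hvan : AssemblyVanishes M := by
    refine ⟨hGeo, J0, J1, hJ0, hJ1, fun i j => (hE i j).1, A, hAim, ?_⟩
    have hK := hS S T0 B (fun i j => ⟨(hSr i j).1, (hSr i j).2, hBim i j⟩) hcd hidem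
    obtain ⟨Φ, hmem, hhom, h0, h1, hroot⟩ := hA T
    have hBA : ∀ i j, Φ (B i j) = A i j := fun i j =>
      hroot _ _ _ _ _ (hSr i j).2 (hE i j).2 (hSr i j).1 (hE i j).1 (hBim i j) (hAim i j)
    have hd : ∀ i j, Matrix.diagonal ![(0 : UnivSpace Base →L[ℂ] UnivSpace Base), 1] i j ∈
        maxRoeUnit Base := by
      intro i j
      fin_cases i <;> fin_cases j <;> first | exact unit_zero | exact unit_one
    have hBmem : ∀ i j, B i j ∈ maxRoeUnit Base := fun i j =>
      unit_of_mem (subset_closure ⟨_, (hSr i j).1, hBim i j⟩)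
    have hdiag : (Matrix.diagonal ![(0 : UnivSpace Base →L[ℂ] UnivSpace Base), 1]).map Φ =
        Matrix.diagonal ![0, 1] := by
      ext i j : 1
      fin_cases i <;> fin_cases j <;> simp [h0, h1]
    have := sameK0_push Φ hR hBGb hmem hhom h0 h1 hK
    rw [hdiag] at this
    convert this using 1
    ext i j : 1
    simp only [Matrix.map_apply, Matrix.add_apply, Matrix.of_apply]
    rw [(hhom _ (hd i j) _ (hBmem i j)).1, hBA]
    congr 1
    exact (congrFun (congrFun hdiag i) j).symm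
  refine ⟨M, hvan, fun R hR2 k hk hkill => ?_⟩
  obtain ⟨U0, U1, W, m, φ, hφ, hρ0, hρ1, hW⟩ := hTor
  obtain ⟨n, Q, hQ, p, θ, deg, d, F, G, P, hdvd, hθc, hθ0, hθ1, hdeg, hd, hcard, -, hline, hPG,
    hGP, hroot, hoff⟩ := hB T hlift R hR2 k hk
  obtain ⟨ψ, hψ⟩ := hP C₀(Rips (Vert T) R, ℂ) Q hQ p
  let N := M.pull (ripsRestrict hR2)
  let V0 : N.H0.carrier ≃ₗᵢ[ℂ] RootL2 := U0
  let V1 : N.H1.carrier ≃ₗᵢ[ℂ] RootL2 := U1
  let q : ∀ n, Torus → Rips (Vert T) R := fun n x => ripsIncl hR2 (φ n x)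
  have hq : ∀ n x, IsRootPoint T n x (q n x) := fun n x => (hφ n).2.2.2 x
  let ev : C₀(Rips (Vert T) R, ℂ) → ℕ → Torus → ℂ := fun f n x => f (q n x)
  have hev0 : ∀ f v n, ⇑(V0 (N.ρ0 f v) n : TorusL2) =ᵐ[volume]
      fun x => ev f n x * (V0 v n : TorusL2) x := fun f v n => hρ0 (ripsRestrict hR2 f) v n
  have hev1 : ∀ f v n, ⇑(V1 (N.ρ1 f v) n : TorusL2) =ᵐ[volume]
      fun x => ev f n x * (V1 v n : TorusL2) x := fun f v n => hρ1 (ripsRestrict hR2 f) v n
  obtain ⟨P0, C0, P1, C1, kP, hkP, hsees, h1, h2⟩ := sees_of_path p N V0 V1 W ev hev0 hev1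
    (fun v n => hW v n) n (m n) (hφ n).1 (hφ n).2.1 hI hθc hθ0 hθ1 hdeg hd hline hPG hGP
    (fun t ht n' x => by
      by_cases hn : n' = n
      · subst hn
        simpa using hroot t ht x _ (hq n' x)
      · simpa [hn] using hoff t ht n' hn x _ (hq n' x))
  have hv := hψ N θ deg kP 0 P0 C0 P1 C1 hsees hθ1 h1 h2
  have hz := congrArg ψ hkill
  rw [map_nsmul, map_zero, hv, nsmul_eq_mul, ← Int.cast_natCast (R := ZMod Q) k, ← Int.cast_mul,
    ZMod.intCast_zmod_eq_zero_iff_dvd] at hz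
  apply hdvd
  rcases hdeg with rfl | rfl <;> rcases hkP with rfl | rfl <;> simpa using hz

end VP212
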