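import Vale.Agent.P212.Main.Push
import Vale.Agent.P212.Geom.Main
import Vale.Agent.P212.NormFin.Norm
import Vale.Agent.P212.NormFin.Closure

/-!
P212: the finished parts on the two spaces and their algebras.
-/

namespace VP212

theorem roeRing : RoeRingSpec := fun _ _ hX _ _ hS hT => ⟨hS.add hT, hS.mul hX hT⟩

end VP212
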