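import Vale.Agent.P212.Base.Ops

/-!
P212: the unitised maximal Roe algebra is a ring, and K0 equalities are pushed forward.
-/

open scoped InnerProductSpace

namespace VP212

/-- Sums and products of the algebraic Roe algebra stay in it. -/
def RoeRingSpec : Prop :=
  ∀ (X : Type) [MetricSpace X], BoundedGeometry X → ∀ S T : RoeSpace X →L[ℂ] RoeSpace X,
    IsRoe S → IsRoe T → IsRoe (S + T) ∧ IsRoe (S * T)

variable {X : Type} [MetricSpace X]

theorem isRoe_zero : IsRoe (0 : RoeSpace X →L[ℂ] RoeSpace X) := by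
  refine ⟨⟨0, fun x y k l _ => by simp⟩, fun x y e e' _ _ => ?_⟩
  simp only [ContinuousLinearMap.zero_comp, ContinuousLinearMap.comp_zero]
  exact isCompactOperator_zero

theorem univ_zero : IsUnivImage (0 : RoeSpace X →L[ℂ] RoeSpace X) 0 := by
  intro v π
  have h : π.π 0 = 0 := by simpa using π.map_smul 0 0 isRoe_zero
  simp [h]

/-- The algebraic part. -/
def algRoe (X : Type) [MetricSpace X] : Set (UnivSpace X →L[ℂ] UnivSpace X) :=
  {A | ∃ T, IsRoe T ∧ IsUnivImage T A}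

theorem zero_mem_maxRoe : (0 : UnivSpace X →L[ℂ] UnivSpace X) ∈ maxRoe X :=
  subset_closure ⟨0, isRoe_zero, univ_zero⟩

theorem maxRoe_add (h : RoeRingSpec) (hX : BoundedGeometry X) {A B} (hA : A ∈ maxRoe X)
    (hB : B ∈ maxRoe X) : A + B ∈ maxRoe X := by
  refine map_mem_closure₂ continuous_add hA hB ?_
  rintro a ⟨S, hS, hSa⟩ b ⟨T, hT, hTb⟩
  refine ⟨S + T, (h X hX S T hS hT).1, fun v π => ?_⟩
  simp [π.map_add S T hS hT, hSa v π, hTb v π]

theorem maxRoe_mul (h : RoeRingSpec) (hX : BoundedGeometry X) {A B} (hA : A ∈ maxRoe X)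
    (hB : B ∈ maxRoe X) : A * B ∈ maxRoe X := by
  refine map_mem_closure₂ continuous_mul hA hB ?_
  rintro a ⟨S, hS, hSa⟩ b ⟨T, hT, hTb⟩
  refine ⟨S * T, (h X hX S T hS hT).2, fun v π => ?_⟩
  simp [π.map_mul S T hS hT, hSa _ π, hTb v π]

theorem maxRoe_smul (c : ℂ) {A} (hA : A ∈ maxRoe X)
    (hc : ∀ S : RoeSpace X →L[ℂ] RoeSpace X, IsRoe S → IsRoe (c • S)) : c • A ∈ maxRoe X := by
  refine map_mem_closure (continuous_const_smul c) hA ?_
  rintro a ⟨S, hS, hSa⟩
  exact ⟨c • S, hc S hS, fun v π => by simp [π.map_smul c S hS, hSa v π]⟩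

theorem isRoe_smul (c : ℂ) {S : RoeSpace X →L[ℂ] RoeSpace X} (hS : IsRoe S) : IsRoe (c • S) := by
  obtain ⟨⟨R, hR⟩, hc⟩ := hS
  refine ⟨⟨R, fun x y k l hxy => by simp [inner_smul_right, hR x y k l hxy]⟩,
    fun x y e e' he he' => ?_⟩
  rw [ContinuousLinearMap.smul_comp, ContinuousLinearMap.comp_smul]
  exact (hc x y e e' he he').smul c

theorem unit_add (h : RoeRingSpec) (hX : BoundedGeometry X) {a b} (ha : a ∈ maxRoeUnit X)
    (hb : b ∈ maxRoeUnit X) : a + b ∈ maxRoeUnit X := by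
  obtain ⟨z, A, hA, rfl⟩ := ha
  obtain ⟨w, B, hB, rfl⟩ := hb
  exact ⟨z + w, A + B, maxRoe_add h hX hA hB, by rw [add_smul]; abel⟩

theorem unit_mul (h : RoeRingSpec) (hX : BoundedGeometry X) {a b} (ha : a ∈ maxRoeUnit X)
    (hb : b ∈ maxRoeUnit X) : a * b ∈ maxRoeUnit X := by
  obtain ⟨z, A, hA, rfl⟩ := ha
  obtain ⟨w, B, hB, rfl⟩ := hb
  refine ⟨z * w, z • B + w • A + A * B, maxRoe_add h hX (maxRoe_add h hX
    (maxRoe_smul z hB fun S => isRoe_smul z) (maxRoe_smul w hA fun S => isRoe_smul w))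
    (maxRoe_mul h hX hA hB), ?_⟩
  rw [add_mul, mul_add, mul_add, smul_mul_smul_comm, one_mul, smul_mul_assoc, one_mul,
    mul_smul_comm, mul_one]
  abel

theorem unit_zero : (0 : UnivSpace X →L[ℂ] UnivSpace X) ∈ maxRoeUnit X :=
  ⟨0, 0, zero_mem_maxRoe, by simp⟩

theorem unit_one : (1 : UnivSpace X →L[ℂ] UnivSpace X) ∈ maxRoeUnit X :=
  ⟨1, 0, zero_mem_maxRoe, by simp⟩

theorem unit_of_mem {A} (hA : A ∈ maxRoe X) : A ∈ maxRoeUnit X :=
  ⟨0, A, hA, by simp⟩

variable {Y : Type} [MetricSpace Y]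
  (Φ : (UnivSpace X →L[ℂ] UnivSpace X) → (UnivSpace Y →L[ℂ] UnivSpace Y))

theorem push_sum (h : RoeRingSpec) (hX : BoundedGeometry X)
    (hadd : ∀ a ∈ maxRoeUnit X, ∀ b ∈ maxRoeUnit X, Φ (a + b) = Φ a + Φ b) (h0 : Φ 0 = 0)
    {κ : Type} (s : Finset κ) (f : κ → (UnivSpace X →L[ℂ] UnivSpace X))
    (hf : ∀ i, f i ∈ maxRoeUnit X) :
    (∑ i ∈ s, f i) ∈ maxRoeUnit X ∧ Φ (∑ i ∈ s, f i) = ∑ i ∈ s, Φ (f i) := by
  classical
  induction s using Finset.induction_on with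
  | empty => simpa using ⟨unit_zero, h0⟩
  | insert a s ha ih =>
    simp only [Finset.sum_insert ha]
    exact ⟨unit_add h hX (hf a) ih.1, by rw [hadd _ (hf a) _ ih.1, ih.2]⟩

/-- A map multiplicative and additive on the unitisation preserves equality of K0 classes. -/
theorem sameK0_push (h : RoeRingSpec) (hX : BoundedGeometry X)
    (hmem : ∀ a ∈ maxRoeUnit X, Φ a ∈ maxRoeUnit Y)
    (hhom : ∀ a ∈ maxRoeUnit X, ∀ b ∈ maxRoeUnit X,
      Φ (a + b) = Φ a + Φ b ∧ Φ (a * b) = Φ a * Φ b)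
    (h0 : Φ 0 = 0) (h1 : Φ 1 = 1) {ι : Type} [Fintype ι] [DecidableEq ι]
    {e f : Matrix ι ι (UnivSpace X →L[ℂ] UnivSpace X)}
    (hef : SameK0 (maxRoeUnit X) e f) : SameK0 (maxRoeUnit Y) (e.map Φ) (f.map Φ) := by
  obtain ⟨m, n, a, b, ha, hb, hab, hba⟩ := hef
  refine ⟨m, n, a.map Φ, b.map Φ, fun i j => hmem _ (ha i j), fun i j => hmem _ (hb i j), ?_, ?_⟩
  all_goals
    ext i j : 1
    simp only [Matrix.mul_apply, Matrix.map_apply]
  · rw [← Finset.sum_congr rfl fun k _ => (hhom _ (ha i k) _ (hb k j)).2,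
      ← (push_sum Φ h hX (fun a ha b hb => (hhom a ha b hb).1) h0 Finset.univ
        (fun k => a i k * b k j) fun k => unit_mul h hX (ha i k) (hb k j)).2,
      ← Matrix.mul_apply, hab]
    rcases i with i | i | i <;> rcases j with j | j | j <;>
      simp [h0, Matrix.one_apply, apply_ite Φ, h1]
  · rw [← Finset.sum_congr rfl fun k _ => (hhom _ (hb i k) _ (ha k j)).2,
      ← (push_sum Φ h hX (fun a ha b hb => (hhom a ha b hb).1) h0 Finset.univ
        (fun k => b i k * a k j) fun k => unit_mul h hX (hb i k) (ha k j)).2,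
      ← Matrix.mul_apply, hba]
    rcases i with i | i | i <;> rcases j with j | j | j <;>
      simp [h0, Matrix.one_apply, apply_ite Φ, h1]

/-- Distinct points of a join are at distance at least one. -/
theorem join_one_le {V : Type} (G : SimpleGraph V) (c : V → ℕ) (o : ℕ → V)
    (ho : ∀ m, c (o m) = m) (hreach : ∀ x, G.Reachable x (o (c x))) {x y : V} (h : x ≠ y) :
    1 ≤ joinDist G c o x y := by
  unfold joinDist
  split
  · next hc =>
    have := ((hreach x).trans (hc ▸ (hreach y).symm)).pos_dist_of_ne h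
    exact_mod_cast this
  · have : (0 : ℝ) ≤ (G.dist x (o (c x)) : ℝ) + G.dist y (o (c y)) := by positivity
    have hx : (0 : ℝ) ≤ (c x : ℝ) + c y := by positivity
    linarith

theorem base_discrete : UniformlyDiscrete Base :=
  ⟨1, one_pos, fun _ _ h => join_one_le baseGraph Base.n baseRoot (fun _ => rfl) base_reach_root h⟩

end VP212
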