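import Vale.Agent.P212.Main.Parts
import Vale.Agent.P212.Main.Disproof
import Vale.Agent.P212.Alg.Tower.Spec
import Vale.Agent.P212.Avg.Main
import Vale.Agent.P212.Swindle.Main
import Vale.Agent.P212.TorusMod.Main
import Vale.Agent.P212.Index.Main

/-!
P212: the disproof, granted the pairing and the bundle.
-/

namespace VP212

theorem disproof_of_pairing (hP : PairingSpec) (hB : BundleSpec) : Disproof :=
  disproof_of_parts Alg.towerSpec Geom.geometrySpec normFinite roeRing
    (averaging Geom.geometrySpec normFinite) (Swindle.swindleSpec normFinite) TorusMod.torusModule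
    hP hB torusIndex

end VP212
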